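import Vale.Agent.P022.H472.Lit

/-!
P022, real quadratic fields: the indefinite theta kernel (definitions and literals).

`Q = a x² + b x y + c y²`, `b² - 4 a c = D > 0`; real embeddings `e1 e2 = a Q`; for `t > 0`
`Wp = (t e1 + e2 / t) / (2 √a)`, `Wm = (t e1 - e2 / t) / (2 √a)`, `Wp² - Wm² = Q`.
-/

open Complex
open scoped Real ComplexConjugate

noncomputable section

namespace Vale.Agent.P022.H352

/-- the first real embedding -/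
def e1 (a b : ℤ) (D : ℕ) (v : ℤ × ℤ) : ℝ := a * v.1 + (b + √D) / 2 * v.2

/-- the second real embedding -/
def e2 (a b : ℤ) (D : ℕ) (v : ℤ × ℤ) : ℝ := a * v.1 + (b - √D) / 2 * v.2

/-- positive coordinate -/
def Wp (a b : ℤ) (D : ℕ) (t : ℝ) (v : ℤ × ℤ) : ℝ :=
  (t * e1 a b D v + t⁻¹ * e2 a b D v) / (2 * √a)

/-- negative coordinate -/
def Wm (a b : ℤ) (D : ℕ) (t : ℝ) (v : ℤ × ℤ) : ℝ :=
  (t * e1 a b D v - t⁻¹ * e2 a b D v) / (2 * √a)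

/-- the kernel of `Q` -/
def kp (a b : ℤ) (D : ℕ) (t : ℝ) (w : ℂ) (v : ℤ × ℤ) : ℂ :=
  Wp a b D t v * cexp (2 * π * I * (w * (Wp a b D t v : ℂ) ^ 2 - conj w * (Wm a b D t v : ℂ) ^ 2))

/-- the kernel of `-Q` -/
def km (a b : ℤ) (D : ℕ) (t : ℝ) (w : ℂ) (v : ℤ × ℤ) : ℂ :=
  Wm a b D t v * cexp (2 * π * I * (w * (Wm a b D t v : ℂ) ^ 2 - conj w * (Wp a b D t v : ℂ) ^ 2))

/-- the theta kernel of `Q` -/
def Tp (a b : ℤ) (D : ℕ) (t : ℝ) (f : ℤ × ℤ → ℂ) (w : ℂ) : ℂ := ∑' v, f v * kp a b D t w v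

/-- the theta kernel of `-Q` -/
def Tm (a b : ℤ) (D : ℕ) (t : ℝ) (f : ℤ × ℤ → ℂ) (w : ℂ) : ℂ := ∑' v, f v * km a b D t w v

/-- [RPO] Poisson summation for the kernels -/
def RPOStmt : Prop := ∀ (a b c : ℤ) (D : ℕ) (_ : 0 < a) (_ : 0 < D) (_ : b ^ 2 - 4 * a * c = D)
  (M : ℕ) (_ : 0 < M) (f : ℤ × ℤ → ℂ) (_ : Per M f) (t : ℝ) (_ : 0 < t) (w : ℂ) (_ : 0 < w.im),
  Tp a b D t f w = -(1 / (D * M ^ 3 * w * ‖w‖)) * Tm a b D t (hatF M f) (-1 / (D * M ^ 2 * w)) ∧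
  Tm a b D t f w = (1 / (D * M ^ 3 * w * ‖w‖)) * Tp a b D t (hatF M f) (-1 / (D * M ^ 2 * w))

/-- the Kronecker symbol `(D / d)`, `D = 2 ^ v D₀ > 0`, `d` odd -/
def krP (v D₀ : ℕ) (d : ℤ) : ℤ :=
  ZMod.χ₈ (d : ZMod 8) ^ v * (if D₀ % 4 = 3 then ZMod.χ₄ (d : ZMod 4) else 1) * jacobiSym d D₀

/-- [RLAW1] the law of the kernel under `Γ₀(D m²)`, last entry odd -/
def RLAW1Stmt : Prop := ∀ (a b c : ℤ) (D v D₀ : ℕ) (_ : 0 < a) (_ : D = 2 ^ v * D₀) (_ : Odd D₀)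
  (_ : b ^ 2 - 4 * a * c = D) (m : ℕ) (_ : 0 < m) (f : ℤ × ℤ → ℂ) (_ : Per m f)
  (A B C d : ℤ) (_ : Odd d) (_ : A * d - B * C = 1) (_ : ((D * m ^ 2 : ℕ) : ℤ) ∣ C)
  (t : ℝ) (_ : 0 < t) (w : ℂ) (_ : 0 < w.im),
  Tp a b D t f ((A * w + B) / (C * w + d)) =
    krP v D₀ d * (C * w + d) * ‖C * w + d‖ * Tp a b D t (fun v => f (d • v)) w ∧
  Tm a b D t f ((A * w + B) / (C * w + d)) =
    krP v D₀ d * (C * w + d) * ‖C * w + d‖ * Tm a b D t (fun v => f (d • v)) w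

section basic

variable {a b c : ℤ} {D : ℕ}

theorem Wsq (ha : 0 < a) (h : b ^ 2 - 4 * a * c = D) {t : ℝ} (ht : t ≠ 0) (v : ℤ × ℤ) :
    Wp a b D t v ^ 2 - Wm a b D t v ^ 2 = Qf a b c v := by
  have ha' : (0 : ℝ) < a := by exact_mod_cast ha
  have hs : √(a : ℝ) ^ 2 = a := Real.sq_sqrt ha'.le
  have hs0 : √(a : ℝ) ≠ 0 := (Real.sqrt_pos.2 ha').ne'
  have hD : √(D : ℝ) ^ 2 = D := Real.sq_sqrt (Nat.cast_nonneg D)
  have h' : (b : ℝ) ^ 2 - 4 * a * c = D := by exact_mod_cast h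
  have key : Wp a b D t v ^ 2 - Wm a b D t v ^ 2 = e1 a b D v * e2 a b D v / √(a : ℝ) ^ 2 := by
    unfold Wp Wm
    field_simp
    ring
  rw [key, hs, div_eq_iff ha'.ne']
  simp only [e1, e2, Qf]
  push_cast
  linear_combination (-(v.2 : ℝ) ^ 2 / 4) * hD + ((v.2 : ℝ) ^ 2 / 4) * h'

end basic

end Vale.Agent.P022.H352
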