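import Vale.Agent.P022.H352.Ker
import Vale.Agent.P022.H138.LawE

/-!
P022, real quadratic fields, [RLAW1]: the law of the indefinite theta kernel under `Γ₀(D m²)`,
from Poisson summation and the Gauss sum modulo a prime (prime route of helper138).
-/

namespace Vale.Agent.P022.H352

noncomputable section

open Complex H138 H138.Sq

/-- an abstract pair of theta kernels: `Θ` for the form `σ Q`, `Θ'` for the form `-σ Q` -/
structure Pair (a b c : ℤ) (D : ℕ) (σ : ℤ) (s : ℂ) (Θ Θ' : (ℤ × ℤ → ℂ) → ℂ → ℂ) : Prop where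
  tr : ∀ (f : ℤ × ℤ → ℂ) (β : ℤ) (n : ℕ) (w : ℂ), 0 < n →
    Θ (fun v => f v * ee (((β * Qf a b c v : ℤ) : ℂ) / n)) w = Θ f (w + σ * β / n)
  tr' : ∀ (f : ℤ × ℤ → ℂ) (β : ℤ) (n : ℕ) (w : ℂ), 0 < n →
    Θ' (fun v => f v * ee (((β * Qf a b c v : ℤ) : ℂ) / n)) w = Θ' f (w - σ * β / n)
  po : ∀ (M : ℕ) (f : ℤ × ℤ → ℂ) (w : ℂ), 0 < M → Per M f → 0 < w.im →
    Θ f w = s * (1 / (D * M ^ 3 * w * ‖w‖)) * Θ' (hatF M f) (-1 / (D * M ^ 2 * w))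
  lin : ∀ (G : ℂ) (f : ℤ × ℤ → ℂ) (w : ℂ), Θ' (fun v => G * f v) w = G * Θ' f w
  neg : ∀ (f : ℤ × ℤ → ℂ) (w : ℂ), Θ (fun v => f (-v)) w = - Θ f w

/-- the law for a matrix whose last entry is a prime, with the value `χ` of the Gauss sum -/
theorem law_prime_pair {a b c : ℤ} {D : ℕ} {σ : ℤ} (hσ : σ * σ = 1) {s : ℂ}
    {Θ Θ' : (ℤ × ℤ → ℂ) → ℂ → ℂ} (P : Pair a b c D σ s Θ Θ') (hD0 : 0 < D)
    (hD : b ^ 2 - 4 * a * c = D) {m : ℕ} (hm : 0 < m) {f : ℤ × ℤ → ℂ} (hf : Per m f)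
    {A B C : ℤ} {ℓ : ℕ} [NeZero ℓ] (hℓ : ℓ.Prime) (χ : ℤ)
    (hχ : ∀ h : ℤ, ¬ (ℓ : ℤ) ∣ h → ∑ x : Fin 2 → ZMod ℓ,
      ee (((h * Sq.Qf a b c (rep x) : ℤ) : ℂ) / (ℓ : ℂ)) = (χ : ℂ) * ℓ)
    (hdet : A * ℓ - B * C = 1) (hC : ((D * m ^ 2 : ℕ) : ℤ) ∣ C) {w : ℂ} (hw : 0 < w.im) :
    Θ f ((A * w + B) / (C * w + ℓ)) =
      χ * (C * w + ℓ) * ‖C * w + ℓ‖ * Θ (fun v => f ((ℓ : ℤ) • v)) w := by
  have : Fact ℓ.Prime := ⟨hℓ⟩
  have : NeZero m := ⟨hm.ne'⟩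
  obtain ⟨c', hc'⟩ := hC
  have hℓm : ¬ (ℓ : ℤ) ∣ m := by
    intro h
    have h1 : (ℓ : ℤ) ∣ C := by
      rw [hc']
      push_cast
      exact Dvd.dvd.mul_right (Dvd.dvd.mul_left (dvd_pow h two_ne_zero) _) _
    have h2 : (ℓ : ℤ) ∣ 1 := by
      rw [← hdet]
      exact dvd_sub (Dvd.intro_left _ rfl) (Dvd.dvd.mul_left h1 _)
    have h3 := Int.natAbs_dvd_natAbs.2 h2
    simp at h3
    exact hℓ.one_lt.ne' h3
  have hcop : m.Coprime ℓ := by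
    rw [Nat.coprime_comm, Nat.Prime.coprime_iff_not_dvd hℓ]
    intro h
    exact hℓm (by exact_mod_cast h)
  have hpi : Prime (ℓ : ℤ) := Nat.prime_iff_prime_int.1 hℓ
  have hℓσ : ¬ (ℓ : ℤ) ∣ σ := by
    intro h
    exact hpi.not_dvd_one (hσ ▸ Dvd.dvd.mul_right h σ)
  have hℓB : ¬ (ℓ : ℤ) ∣ σ * B * m ^ 2 := by
    intro h
    rcases hpi.dvd_or_dvd h with h | h
    · rcases hpi.dvd_or_dvd h with h | h
      · exact hℓσ h
      · have h2 : (ℓ : ℤ) ∣ 1 := by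
          rw [← hdet]
          exact dvd_sub (Dvd.intro_left _ rfl) (Dvd.dvd.mul_right h _)
        exact hpi.not_dvd_one h2
    · exact hℓm (hpi.dvd_of_dvd_pow h)
  -- notation
  have hℓ0 : (ℓ : ℂ) ≠ 0 := by exact_mod_cast hℓ.ne_zero
  have hm0 : (m : ℂ) ≠ 0 := by exact_mod_cast hm.ne'
  have hDc : (D : ℂ) ≠ 0 := by exact_mod_cast hD0.ne'
  have hz := ne_aux hw hℓ.pos C
  have hw0 : w ≠ 0 := by rintro rfl; simp at hw
  obtain ⟨z, hzd⟩ : ∃ z : ℂ, z = C * w + ℓ := ⟨_, rfl⟩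
  rw [← hzd] at hz ⊢
  obtain ⟨t, ht⟩ : ∃ t : ℂ, t = w / (ℓ * z) := ⟨_, rfl⟩
  have htim : 0 < t.im := by
    rw [ht, hzd]
    exact im_pos_aux hw hℓ.pos C
  have ht0 : t ≠ 0 := by rintro h; rw [h] at htim; simp at htim
  have hdetC : (A * ℓ - B * C : ℂ) = 1 := by exact_mod_cast hdet
  have hcC : (C : ℂ) = D * m ^ 2 * c' := by
    have := congrArg (Int.cast : ℤ → ℂ) hc'
    push_cast at this
    exact this
  have hσC : (σ : ℂ) * σ = 1 := by exact_mod_cast hσ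
  -- step 1: translate
  have hγ : (A * w + B) / z = t + σ * ((σ * B : ℤ) : ℂ) / ℓ := by
    rw [ht]
    push_cast
    rw [← mul_assoc, hσC, one_mul]
    field_simp
    rw [hzd]
    linear_combination (w) * hdetC
  let F : ℤ × ℤ → ℂ := fun v => f v * ee ((((σ * B) * Qf a b c v : ℤ) : ℂ) / (ℓ : ℂ))
  have s1 : Θ f ((A * w + B) / z) = Θ F t := by
    rw [hγ]
    exact (P.tr f (σ * B) ℓ t hℓ.pos).symm
  have hF : Per (ℓ * m) F := by
    intro v u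
    have h1 : f (v + ((ℓ * m : ℕ) : ℤ) • u) = f v := by
      have : v + ((ℓ * m : ℕ) : ℤ) • u = v + (m : ℤ) • ((ℓ : ℤ) • u) := by
        rw [smul_smul]
        push_cast
        rw [mul_comm (m : ℤ) ℓ]
      rw [this, hf]
    simp only [F]
    rw [h1]
    congr 1
    apply ee_congr
    rw [← mul_sub]
    refine Dvd.dvd.mul_left ?_ _
    have h2 := Sq.Qf_add_smul a b c ((ℓ * m : ℕ) : ℤ) ![v.1, v.2] ![u.1, u.2]
    rw [Qf_toP] at h2
    have h3 : (![v.1, v.2] + ((ℓ * m : ℕ) : ℤ) • ![u.1, u.2] : Fin 2 → ℤ) =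
        ![(v + ((ℓ * m : ℕ) : ℤ) • u).1, (v + ((ℓ * m : ℕ) : ℤ) • u).2] := by
      funext i
      fin_cases i <;> simp
    rw [h3, Qf_toP] at h2
    exact (Dvd.intro (m : ℤ) (by push_cast; ring)).trans h2
  -- step 2: Poisson for `F`
  have s2 := P.po (ℓ * m) F t (Nat.mul_pos hℓ.pos hm) hF htim
  -- step 3: Poisson for `f (ℓ •)`
  let g : ℤ × ℤ → ℂ := fun v => f ((ℓ : ℤ) • v)
  have hg : Per m g := by
    intro v u
    simp only [g]
    rw [smul_add, smul_comm, hf]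
  have s3 := P.po m g w hm hg hw
  -- step 4: the finite Fourier transform
  obtain ⟨G, hG⟩ : ∃ G : ℂ, G = (χ : ℂ) * ℓ := ⟨_, rfl⟩
  have s4 : hatF (ℓ * m) F = fun v => (G * hatF m g v) *
      ee ((((-(σ * c')) * Qf a b c v : ℤ) : ℂ) / (ℓ : ℂ)) := by
    funext v
    rw [hatF_eq, hatF_eq]
    have h4 : 4 * a * c - b ^ 2 = (-(D : ℤ)) := by linarith
    have hβ : (ℓ : ℤ) ∣ (σ * B) * (-(σ * c')) * (-(D : ℤ)) * m ^ 2 + 1 := by
      refine ⟨A, ?_⟩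
      rw [hc'] at hdet
      push_cast at hdet
      linear_combination (B * c' * D * m ^ 2) * hσ - hdet
    have h5 := Sq.sq hcop (per_toP hf) h4 hβ ![v.1, v.2]
    rw [Qf_toP] at h5
    have h6 : toP F = fun x => toP f x * ee ((((σ * B) * Sq.Qf a b c x : ℤ) : ℂ) / (ℓ : ℂ)) := by
      funext x
      simp only [toP, F, Qf_toP']
    have h7 : toP g = fun x => toP f ((ℓ : ℤ) • x) := by
      funext x
      simp only [toP, g]
      congr 1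
    rw [h6, h5, h7, hχ _ hℓB, ← hG]
    ring
  -- step 5: the dual series
  have s5 : Θ' (hatF (ℓ * m) F) (-1 / (D * ((ℓ * m : ℕ) : ℂ) ^ 2 * t)) =
      G * Θ' (hatF m g) (-1 / (D * (m : ℂ) ^ 2 * w)) := by
    rw [s4, P.tr' _ _ _ _ hℓ.pos, P.lin]
    congr 2
    rw [ht]
    push_cast
    have h1 : (σ : ℂ) * (-(σ * c')) = -c' := by
      linear_combination (-(c' : ℂ)) * hσC
    rw [h1]
    field_simp
    rw [hzd, hcC]
    ring
  rw [s1, s2, s5]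
  change _ = _ * Θ g w
  rw [s3, hG, ht]
  have hnz : ((‖z‖ : ℝ) : ℂ) ≠ 0 := by exact_mod_cast (norm_ne_zero_iff.2 hz)
  have hnw : ((‖w‖ : ℝ) : ℂ) ≠ 0 := by exact_mod_cast (norm_ne_zero_iff.2 hw0)
  have hnorm : ((‖w / (ℓ * z)‖ : ℝ) : ℂ) = ‖w‖ / (ℓ * ‖z‖) := by
    rw [norm_div, norm_mul, Complex.norm_natCast]
    push_cast
    ring
  rw [hnorm]
  push_cast
  field_simp

/-- the Gauss sum modulo a prime, any discriminant -/
theorem gauss_int (ℓ : ℕ) [Fact ℓ.Prime] (hℓ : ℓ ≠ 2) (p q r h : ℤ) (Δ : ℤ)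
    (hD : 4 * p * r - q ^ 2 = -Δ) (hp : ¬ (ℓ : ℤ) ∣ p) (hh : ¬ (ℓ : ℤ) ∣ h)
    (hl : ¬ (ℓ : ℤ) ∣ Δ) :
    ∑ x : Fin 2 → ZMod ℓ, ee ((h * Sq.Qf p q r (rep x) : ℤ) / (ℓ : ℂ)) =
      (jacobiSym Δ ℓ : ℂ) * ℓ := by
  have hc : ∀ z : ℤ, ¬ (ℓ : ℤ) ∣ z → ((z : ℤ) : ZMod ℓ) ≠ 0 := fun z hz h0 =>
    hz ((ZMod.intCast_zmod_eq_zero_iff_dvd z ℓ).1 h0)
  have hF : ringChar (ZMod ℓ) ≠ 2 := by rwa [ZMod.ringChar_zmod_n]
  have hD' : (4 : ZMod ℓ) * (p : ZMod ℓ) * (r : ZMod ℓ) - (q : ZMod ℓ) ^ 2 =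
      ((-Δ : ℤ) : ZMod ℓ) := by
    rw [← hD]; push_cast; ring
  have hl' : ¬ (ℓ : ℤ) ∣ -Δ := by rwa [dvd_neg]
  have h1 := H866.sum_form (ZMod.isPrimitive_stdAddChar ℓ) hF hD' (hc p hp) (hc h hh) (hc _ hl')
  have h2 : ∀ x : Fin 2 → ZMod ℓ, ee ((h * Sq.Qf p q r (rep x) : ℤ) / (ℓ : ℂ)) =
      (fun y : ZMod ℓ × ZMod ℓ => ZMod.stdAddChar ((h : ZMod ℓ) *
        ((p : ZMod ℓ) * y.1 ^ 2 + (q : ZMod ℓ) * y.1 * y.2 + (r : ZMod ℓ) * y.2 ^ 2)))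
        (finTwoArrowEquiv (ZMod ℓ) x) := by
    intro x
    have h3 : ee ((h * Sq.Qf p q r (rep x) : ℤ) / (ℓ : ℂ)) =
        cexp (2 * Real.pi * I * ((h * Sq.Qf p q r (rep x) : ℤ) : ℂ) / ℓ) := by
      unfold ee
      rw [mul_div_assoc]
    rw [h3, ← ZMod.stdAddChar_coe]
    change ZMod.stdAddChar _ = ZMod.stdAddChar ((h : ZMod ℓ) *
        ((p : ZMod ℓ) * (x 0) ^ 2 + (q : ZMod ℓ) * (x 0) * (x 1) + (r : ZMod ℓ) * (x 1) ^ 2))
    congr 1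
    simp only [Sq.Qf, Sq.rep]
    push_cast
    simp only [ZMod.natCast_val, ZMod.cast_id', id_eq]
  refine (Finset.sum_congr rfl fun x _ => h2 x).trans ((Equiv.sum_comp (finTwoArrowEquiv (ZMod ℓ))
    (fun y : ZMod ℓ × ZMod ℓ => ZMod.stdAddChar ((h : ZMod ℓ) *
        ((p : ZMod ℓ) * y.1 ^ 2 + (q : ZMod ℓ) * y.1 * y.2 + (r : ZMod ℓ) * y.2 ^ 2)))).trans ?_)
  rw [h1, ZMod.card]
  congr 1
  have h3 : (quadraticChar (ZMod ℓ) (-((-Δ : ℤ) : ZMod ℓ)) : ℤ) = jacobiSym Δ ℓ := by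
    rw [← jacobiSym.legendreSym.to_jacobiSym, legendreSym]
    push_cast
    rw [neg_neg]
  rw [h3]

/-! ### the Kronecker symbol -/

theorem krP_eq (v : ℕ) {D₀ : ℕ} (hD₀ : Odd D₀) {d : ℤ} (hd : Odd d) :
    krP v D₀ d = ZMod.χ₄ (d : ZMod 4) * H776.kr v D₀ d := by
  have h4 : d % 2 = 1 := Int.odd_iff.mp hd
  have h44 : ZMod.χ₄ (d : ZMod 4) * ZMod.χ₄ (d : ZMod 4) = 1 := by
    have : d % 4 = 1 ∨ d % 4 = 3 := by omega
    have e : ((d % 4 : ℤ) : ZMod 4) = (d : ZMod 4) := by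
      rw [← sub_eq_zero, ← Int.cast_sub]
      exact (ZMod.intCast_zmod_eq_zero_iff_dvd _ _).mpr (by push_cast; omega)
    rw [← e]
    rcases this with h | h <;> rw [h] <;> decide
  have hD : D₀ % 2 = 1 := Nat.odd_iff.mp hD₀
  unfold krP H776.kr H776.c2
  rw [pow_add, pow_one]
  have h1 : ZMod.χ₄ (d : ZMod 4) ^ (D₀ / 2) =
      (if D₀ % 4 = 3 then ZMod.χ₄ (d : ZMod 4) else 1) := by
    split_ifs with h
    · obtain ⟨k, hk⟩ : ∃ k, D₀ / 2 = 2 * k + 1 := ⟨D₀ / 4, by omega⟩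
      rw [hk, pow_add, pow_mul, pow_one, _root_.sq, h44, one_pow, one_mul]
    · obtain ⟨k, hk⟩ : ∃ k, D₀ / 2 = 2 * k := ⟨D₀ / 4, by omega⟩
      rw [hk, pow_mul, _root_.sq, h44, one_pow]
  rw [h1]
  calc _ = (ZMod.χ₄ (d : ZMod 4) * ZMod.χ₄ (d : ZMod 4)) *
        (ZMod.χ₈ (d : ZMod 8) ^ v * (if D₀ % 4 = 3 then ZMod.χ₄ (d : ZMod 4) else 1) *
          jacobiSym d D₀) := by rw [h44, one_mul]
    _ = _ := by ring

theorem jac_eq_krP {v D₀ : ℕ} (hD₀ : Odd D₀) {n : ℕ} (hn : Odd n) :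
    jacobiSym ((2 ^ v * D₀ : ℕ) : ℤ) n = krP v D₀ n := by
  have hn' : Odd (n : ℤ) := by exact_mod_cast hn
  have h := jacobiSym.neg (-((2 ^ v * D₀ : ℕ) : ℤ)) hn
  rw [neg_neg] at h
  rw [krP_eq v hD₀ hn', h, H776.jac_eq_kr hD₀ hn]
  push_cast
  rfl

theorem krP_one (v : ℕ) {D₀ : ℕ} (hD₀ : Odd D₀) : krP v D₀ 1 = 1 := by
  rw [krP_eq v hD₀ odd_one, H776.kr_one]
  simp

theorem krP_neg_one (v : ℕ) {D₀ : ℕ} (hD₀ : Odd D₀) : krP v D₀ (-1) = 1 := by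
  rw [krP_eq v hD₀ (by decide), H776.kr_neg_one hD₀]
  decide

theorem krP_mul (v : ℕ) {D₀ : ℕ} (d e : ℤ) : krP v D₀ (d * e) = krP v D₀ d * krP v D₀ e := by
  unfold krP
  push_cast
  rw [map_mul, map_mul, jacobiSym.mul_left, mul_pow]
  split_ifs <;> ring

theorem krP_congr (v D₀ : ℕ) {d e : ℤ} (h : ((8 * D₀ : ℕ) : ℤ) ∣ d - e) :
    krP v D₀ d = krP v D₀ e := by
  have h8' : (8 : ℤ) ∣ d - e := Dvd.dvd.trans ⟨D₀, by push_cast; ring⟩ h
  have h0 : (D₀ : ℤ) ∣ d - e := Dvd.dvd.trans ⟨8, by push_cast; ring⟩ h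
  have h8 : (d : ZMod 8) = (e : ZMod 8) := by
    rw [← sub_eq_zero, ← Int.cast_sub]
    exact (ZMod.intCast_zmod_eq_zero_iff_dvd _ _).mpr (by exact_mod_cast h8')
  have h4 : (d : ZMod 4) = (e : ZMod 4) := by
    rw [← sub_eq_zero, ← Int.cast_sub]
    exact (ZMod.intCast_zmod_eq_zero_iff_dvd _ _).mpr
      (by exact_mod_cast (show (4 : ℤ) ∣ d - e from Dvd.dvd.trans (by norm_num) h8'))
  unfold krP
  rw [h8, h4, jacobiSym.mod_left d D₀, jacobiSym.mod_left e D₀,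
    Int.emod_eq_emod_iff_emod_sub_eq_zero.mpr (Int.emod_eq_zero_of_dvd h0)]

/-! ### the law for every matrix -/

theorem Pair.add_int {a b c : ℤ} {D : ℕ} {σ : ℤ} (hσ : σ * σ = 1) {s : ℂ}
    {Θ Θ' : (ℤ × ℤ → ℂ) → ℂ → ℂ} (P : Pair a b c D σ s Θ Θ') (f : ℤ × ℤ → ℂ) (w : ℂ) (n : ℤ) :
    Θ f (w + n) = Θ f w := by
  have h := P.tr f (σ * n) 1 w one_pos
  have hσC : (σ : ℂ) * σ = 1 := by exact_mod_cast hσ
  have h1 : w + σ * ((σ * n : ℤ) : ℂ) / ((1 : ℕ) : ℂ) = w + n := by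
    push_cast
    rw [← mul_assoc, hσC]
    ring
  rw [h1] at h
  rw [← h]
  congr 1
  funext v
  have h2 : ee ((((σ * n) * Qf a b c v : ℤ) : ℂ) / ((1 : ℕ) : ℂ)) = 1 := by
    rw [Nat.cast_one, div_one]
    exact ee_int _
  rw [h2, mul_one]

theorem law_pair {a b c : ℤ} {D v D₀ : ℕ} {σ : ℤ} (hσ : σ * σ = 1) {s : ℂ}
    {Θ Θ' : (ℤ × ℤ → ℂ) → ℂ → ℂ} (P : Pair a b c D σ s Θ Θ') (ha : 0 < a)
    (hDv : D = 2 ^ v * D₀) (hD₀ : Odd D₀) (hD : b ^ 2 - 4 * a * c = D) {m : ℕ} (hm : 0 < m)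
    {f : ℤ × ℤ → ℂ} (hf : Per m f) {A B C d : ℤ} (hdo : Odd d) (hdet : A * d - B * C = 1)
    (hC : ((D * m ^ 2 : ℕ) : ℤ) ∣ C) {w : ℂ} (hw : 0 < w.im) :
    Θ f ((A * w + B) / (C * w + d)) =
      krP v D₀ d * (C * w + d) * ‖(C * w + d : ℂ)‖ * Θ (fun u => f (d • u)) w := by
  have hD₀0 : 0 < D₀ := hD₀.pos
  have hD0 : 0 < D := by rw [hDv]; positivity
  have hDC : (D : ℤ) ∣ C := (Dvd.intro ((m : ℤ) ^ 2) (by push_cast; ring)).trans hC
  have hD₀C : (D₀ : ℤ) ∣ C := (Dvd.intro_left ((2 : ℤ) ^ v) (by rw [hDv]; push_cast; ring)).trans hDC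
  have hmC : (m : ℤ) ∣ C := (Dvd.intro_left ((D : ℤ) * m) (by push_cast; ring)).trans hC
  by_cases hC0 : C = 0
  · -- translations
    subst hC0
    have h1 : A * d = 1 := by linarith
    rcases Int.mul_eq_one_iff_eq_one_or_neg_one.1 h1 with ⟨hA, hd⟩ | ⟨hA, hd⟩
    · subst hA hd
      have h4 : (((1 : ℤ) : ℂ) * w + B) / (((0 : ℤ) : ℂ) * w + ((1 : ℤ) : ℂ)) = w + B := by
        push_cast
        ring_nf
      rw [h4, P.add_int hσ, krP_one v hD₀]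
      simp
    · subst hA hd
      have h4 : (((-1 : ℤ) : ℂ) * w + B) / (((0 : ℤ) : ℂ) * w + ((-1 : ℤ) : ℂ)) =
          w + ((-B : ℤ) : ℂ) := by
        push_cast
        ring_nf
      have h5 : (fun u => f ((-1 : ℤ) • u)) = fun u => f (-u) := by
        funext u
        simp
      rw [h4, P.add_int hσ, h5, P.neg, krP_neg_one v hD₀]
      simp
  · -- make the last entry a prime
    have hcop : IsCoprime d ((8 * C.natAbs : ℕ) : ℤ) := by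
      have h1 : IsCoprime d C := ⟨A, -B, by linarith⟩
      have h2 : IsCoprime d (C.natAbs : ℤ) := by
        rcases Int.natAbs_eq C with h | h
        · rw [h] at h1; exact h1
        · rw [h] at h1
          simpa using h1.neg_right
      have h3 : IsCoprime d (2 : ℤ) := by
        obtain ⟨k, hk⟩ := hdo
        exact ⟨1, -k, by rw [hk]; ring⟩
      have h4 : IsCoprime d (8 : ℤ) := by
        have := h3.pow_right (n := 3)
        norm_num at this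
        exact this
      push_cast
      push_cast at h2
      exact h4.mul_right h2
    obtain ⟨ℓ, hℓn, hℓ, hmod⟩ := Nat.forall_exists_prime_gt_and_zmodEq
      (2 + a.natAbs + D) (q := 8 * C.natAbs)
      (Nat.mul_ne_zero (by norm_num) (Int.natAbs_ne_zero.2 hC0)) hcop
    have h2 : 8 * C ∣ (ℓ : ℤ) - d := by
      have h3 := hmod.symm.dvd
      have h4 : (8 * C) ∣ ((8 * C.natAbs : ℕ) : ℤ) := by
        push_cast
        exact mul_dvd_mul_left 8 ((dvd_abs C C).2 dvd_rfl)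
      exact h4.trans h3
    obtain ⟨n', hn'⟩ := h2
    obtain ⟨n, hnn⟩ : ∃ n : ℤ, n = 8 * n' := ⟨_, rfl⟩
    have hn : (ℓ : ℤ) - d = C * n := by rw [hn', hnn]; ring
    have hℓ2 : ℓ ≠ 2 := by omega
    have hℓa : ¬ (ℓ : ℤ) ∣ a := by
      intro h
      have h3 := Int.le_of_dvd ha h
      omega
    have hℓD : ¬ (ℓ : ℤ) ∣ D := by
      intro h
      have h3 := Int.le_of_dvd (by exact_mod_cast hD0) h
      omega
    have hdet' : A * ℓ - (B + n * A) * C = 1 := by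
      have : (ℓ : ℤ) = d + C * n := by linarith
      rw [this]
      linarith
    have hwn : 0 < (w + ((-n : ℤ) : ℂ)).im := by
      simpa using hw
    have : Fact ℓ.Prime := ⟨hℓ⟩
    have : NeZero ℓ := ⟨hℓ.ne_zero⟩
    have hℓodd : Odd ℓ := hℓ.odd_of_ne_two hℓ2
    have key := law_prime_pair hσ P hD0 hD hm hf (A := A) (B := B + n * A) (C := C) hℓ
      (jacobiSym (D : ℤ) ℓ)
      (fun h hh => gauss_int ℓ hℓ2 a b c h D (by linarith) hℓa hh hℓD)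
      hdet' hC hwn
    have h3 : (C : ℂ) * (w + ((-n : ℤ) : ℂ)) + ℓ = C * w + d := by
      have : (ℓ : ℂ) = d + C * n := by
        have h4 : (ℓ : ℤ) = d + C * n := by linarith
        have h5 := congrArg (Int.cast : ℤ → ℂ) h4
        push_cast at h5
        exact h5
      rw [this]
      push_cast
      ring
    have h4 : (A : ℂ) * (w + ((-n : ℤ) : ℂ)) + ((B + n * A : ℤ) : ℂ) = A * w + B := by
      push_cast
      ring
    rw [h3, h4, P.add_int hσ] at key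
    rw [key]
    have h5 : (fun u => f ((ℓ : ℤ) • u)) = fun u => f (d • u) := by
      funext u
      obtain ⟨k, hk⟩ := hmC
      have : (ℓ : ℤ) • u = d • u + (m : ℤ) • ((k * n) • u) := by
        rw [smul_smul, ← add_smul]
        congr 1
        rw [hk] at hn
        linarith
      rw [this, hf]
    have h6 : jacobiSym (D : ℤ) ℓ = krP v D₀ d := by
      rw [hDv, jac_eq_krP hD₀ hℓodd]
      apply krP_congr
      rw [hn']
      obtain ⟨k, hk⟩ := hD₀C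
      exact ⟨k * n', by rw [hk]; push_cast; ring⟩
    rw [h5, h6]

/-! ### the kernels -/

section inst

variable {a b c : ℤ} {D : ℕ} {t : ℝ}

theorem kp_add (ha : 0 < a) (h : b ^ 2 - 4 * a * c = D) (ht : t ≠ 0) (w : ℂ) (x : ℝ)
    (v : ℤ × ℤ) : kp a b D t (w + x) v = kp a b D t w v * ee ((Qf a b c v : ℂ) * x) := by
  have h1 := congrArg (fun r : ℝ => (r : ℂ)) (Wsq ha h ht v)
  push_cast at h1
  unfold kp ee
  rw [mul_assoc (Wp a b D t v : ℂ), ← Complex.exp_add, ← h1]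
  congr 2
  rw [map_add, Complex.conj_ofReal]
  ring

theorem km_add (ha : 0 < a) (h : b ^ 2 - 4 * a * c = D) (ht : t ≠ 0) (w : ℂ) (x : ℝ)
    (v : ℤ × ℤ) : km a b D t (w + x) v = km a b D t w v * ee (-(Qf a b c v : ℂ) * x) := by
  have h1 := congrArg (fun r : ℝ => (r : ℂ)) (Wsq ha h ht v)
  push_cast at h1
  unfold km ee
  rw [mul_assoc (Wm a b D t v : ℂ), ← Complex.exp_add, ← h1]
  congr 2
  rw [map_add, Complex.conj_ofReal]
  ring

theorem e1_neg (v : ℤ × ℤ) : e1 a b D (-v) = - e1 a b D v := by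
  simp only [e1, Prod.fst_neg, Prod.snd_neg]
  push_cast
  ring

theorem e2_neg (v : ℤ × ℤ) : e2 a b D (-v) = - e2 a b D v := by
  simp only [e2, Prod.fst_neg, Prod.snd_neg]
  push_cast
  ring

theorem Wp_neg (v : ℤ × ℤ) : Wp a b D t (-v) = - Wp a b D t v := by
  simp only [Wp, e1_neg, e2_neg]
  ring

theorem Wm_neg (v : ℤ × ℤ) : Wm a b D t (-v) = - Wm a b D t v := by
  simp only [Wm, e1_neg, e2_neg]
  ring

theorem kp_neg (w : ℂ) (v : ℤ × ℤ) : kp a b D t w (-v) = - kp a b D t w v := by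
  unfold kp
  rw [Wp_neg, Wm_neg]
  push_cast
  rw [neg_sq, neg_sq]
  ring

theorem km_neg (w : ℂ) (v : ℤ × ℤ) : km a b D t w (-v) = - km a b D t w v := by
  unfold km
  rw [Wp_neg, Wm_neg]
  push_cast
  rw [neg_sq, neg_sq]
  ring

theorem Tp_tr (ha : 0 < a) (h : b ^ 2 - 4 * a * c = D) (ht : t ≠ 0) (f : ℤ × ℤ → ℂ)
    (β : ℤ) (n : ℕ) (w : ℂ) : Tp a b D t (fun v => f v * ee (((β * Qf a b c v : ℤ) : ℂ) / n)) w =
      Tp a b D t f (w + β / n) := by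
  unfold Tp
  refine tsum_congr fun v => ?_
  have h1 : (w + β / n : ℂ) = w + ((β / n : ℝ) : ℂ) := by push_cast; ring
  rw [h1, kp_add ha h ht]
  have h2 : ((β * Qf a b c v : ℤ) : ℂ) / n = (Qf a b c v : ℂ) * ((β / n : ℝ) : ℂ) := by
    push_cast; ring
  beta_reduce
  rw [h2]
  ring

theorem Tm_tr (ha : 0 < a) (h : b ^ 2 - 4 * a * c = D) (ht : t ≠ 0) (f : ℤ × ℤ → ℂ)
    (β : ℤ) (n : ℕ) (w : ℂ) : Tm a b D t (fun v => f v * ee (((β * Qf a b c v : ℤ) : ℂ) / n)) w =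
      Tm a b D t f (w - β / n) := by
  unfold Tm
  refine tsum_congr fun v => ?_
  have h1 : (w - β / n : ℂ) = w + ((-(β / n) : ℝ) : ℂ) := by push_cast; ring
  rw [h1, km_add ha h ht]
  have h2 : ((β * Qf a b c v : ℤ) : ℂ) / n = -(Qf a b c v : ℂ) * ((-(β / n) : ℝ) : ℂ) := by
    push_cast; ring
  beta_reduce
  rw [h2]
  ring

theorem Tp_neg (f : ℤ × ℤ → ℂ) (w : ℂ) :
    Tp a b D t (fun v => f (-v)) w = - Tp a b D t f w := by
  unfold Tp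
  rw [← tsum_neg, ← (Equiv.neg (ℤ × ℤ)).tsum_eq]
  refine tsum_congr fun v => ?_
  simp only [Equiv.neg_apply, neg_neg, kp_neg]
  ring

theorem Tm_neg (f : ℤ × ℤ → ℂ) (w : ℂ) :
    Tm a b D t (fun v => f (-v)) w = - Tm a b D t f w := by
  unfold Tm
  rw [← tsum_neg, ← (Equiv.neg (ℤ × ℤ)).tsum_eq]
  refine tsum_congr fun v => ?_
  simp only [Equiv.neg_apply, neg_neg, km_neg]
  ring

theorem Tp_mul (G : ℂ) (f : ℤ × ℤ → ℂ) (w : ℂ) :
    Tp a b D t (fun v => G * f v) w = G * Tp a b D t f w := by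
  unfold Tp
  rw [← tsum_mul_left]
  exact tsum_congr fun v => by ring

theorem Tm_mul (G : ℂ) (f : ℤ × ℤ → ℂ) (w : ℂ) :
    Tm a b D t (fun v => G * f v) w = G * Tm a b D t f w := by
  unfold Tm
  rw [← tsum_mul_left]
  exact tsum_congr fun v => by ring

theorem pair_p (hP : RPOStmt) (ha : 0 < a) (hD0 : 0 < D) (h : b ^ 2 - 4 * a * c = D)
    (ht : 0 < t) : Pair a b c D 1 (-1) (Tp a b D t) (Tm a b D t) where
  tr f β n w _ := by
    rw [Tp_tr ha h ht.ne']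
    push_cast
    rw [one_mul]
  tr' f β n w _ := by
    rw [Tm_tr ha h ht.ne']
    push_cast
    rw [one_mul]
  po M f w hM hf hw := by
    rw [(hP a b c D ha hD0 h M hM f hf t ht w hw).1]
    ring
  lin := Tm_mul
  neg := Tp_neg

theorem pair_m (hP : RPOStmt) (ha : 0 < a) (hD0 : 0 < D) (h : b ^ 2 - 4 * a * c = D)
    (ht : 0 < t) : Pair a b c D (-1) 1 (Tm a b D t) (Tp a b D t) where
  tr f β n w _ := by
    rw [Tm_tr ha h ht.ne']
    push_cast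
    congr 1
    ring
  tr' f β n w _ := by
    rw [Tp_tr ha h ht.ne']
    push_cast
    congr 1
    ring
  po M f w hM hf hw := by
    rw [(hP a b c D ha hD0 h M hM f hf t ht w hw).2]
    ring
  lin := Tp_mul
  neg := Tm_neg

end inst

/-- **[RLAW1]** -/
theorem RLAW1 (hP : RPOStmt) : RLAW1Stmt := by
  intro a b c D v D₀ ha hDv hD₀ hD m hm f hf A B C d hdo hdet hC t ht w hw
  have hD0 : 0 < D := by
    rw [hDv]
    have := hD₀.pos
    positivity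
  exact ⟨law_pair (by norm_num) (pair_p hP ha hD0 hD ht) ha hDv hD₀ hD hm hf hdo hdet hC hw,
    law_pair (by norm_num) (pair_m hP ha hD0 hD ht) ha hDv hD₀ hD hm hf hdo hdet hC hw⟩

end

end Vale.Agent.P022.H352
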