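import Vale.Agent.P022.H567.Cft
import Vale.Agent.P022.H477.VALX

/-!
P022-CFT, block [RDN]: the valuation of a norm of a cyclic extension at an unramified prime; and
elementary facts on the predicate `Cyc`.
-/

open NumberField IsDedekindDomain Finset

namespace Vale.Agent.P022.H352.CF

open Vale.Agent.P022.C

section cyc

variable {K L : Type} [Field K] [NumberField K] [Field L] [NumberField L] [Algebra K L]
  {n : ℕ} {σ : L ≃ₐ[K] L}

theorem fd (K L : Type) [Field K] [NumberField K] [Field L] [NumberField L] [Algebra K L] :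
    FiniteDimensional K L := Module.Finite.of_restrictScalars_finite ℚ K L

theorem cyc_card (h : Cyc K n σ) : Nat.card (L ≃ₐ[K] L) = n := by
  have := fd K L
  apply le_antisymm
  · rw [← h.rank, Nat.card_eq_fintype_card]
    exact AlgEquiv.card_le
  · rw [← h.ord]
    exact Nat.le_of_dvd Nat.card_pos (orderOf_dvd_natCard σ)

theorem cyc_galois (h : Cyc K n σ) : IsGalois K L := by
  have := fd K L
  apply IsGalois.of_card_aut_eq_finrank
  rw [cyc_card h, h.rank]

theorem cyc_pow (h : Cyc K n σ) (g : L ≃ₐ[K] L) : ∃ i : ℕ, g = σ ^ i := by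
  have := fd K L
  have h1 : Subgroup.zpowers σ = ⊤ := by
    apply Subgroup.eq_top_of_card_eq
    rw [Nat.card_zpowers, h.ord, cyc_card h]
  have h2 : g ∈ Subgroup.zpowers σ := by rw [h1]; trivial
  rw [← mem_powers_iff_mem_zpowers] at h2
  obtain ⟨i, hi⟩ := h2
  exact ⟨i, hi.symm⟩

end cyc

/-- sum of a periodic function over several periods -/
theorem sum_per (f : ℕ → ℤ) (p : ℕ) (hf : ∀ i, f (i + p) = f i) (m : ℕ) :
    ∑ i ∈ range (p * m), f i = m * ∑ i ∈ range p, f i := by
  have h1 : ∀ k i, f (p * k + i) = f i := by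
    intro k
    induction k with
    | zero => intro i; simp
    | succ k ih =>
      intro i
      have : p * (k + 1) + i = (p * k + i) + p := by ring
      rw [this, hf, ih]
  induction m with
  | zero => simp
  | succ m ih =>
    rw [Nat.mul_succ, sum_range_add, ih]
    simp_rw [h1]
    push_cast
    ring

theorem RDN (hU : UNRVStmt) : RDNStmt := by
  intro K L _ _ _ _ _ n σ hc v P hP hdn hun b q hF y c hc0 hy
  have := cyc_galois hc
  have hPb : P ≠ ⊥ := by
    rintro rfl
    apply v.ne_bot
    rw [← hdn, dn]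
    exact Ideal.comap_bot_of_injective _ (FaithfulSMul.algebraMap_injective (𝓞 K) (𝓞 L))
  let w : HeightOneSpectrum (𝓞 L) := ⟨P, hP, hPb⟩
  have hin : ∀ g : L ≃ₐ[K] L, (∀ x : 𝓞 L, g • x - x ∈ w.asIdeal) → g = 1 := by
    intro g hg
    obtain ⟨i, rfl⟩ := cyc_pow hc g
    exact hun i hg
  have hv : ordv w (algebraMap K L c) = ordv v c := hU K L v w hdn hin c
  have hfr : ∀ x : L, w.valuation L ((σ ^ b) x) = w.valuation L x :=
    H477.CF.val_frob (K := K) (g := σ ^ b) (q := q) (w := w) hF
  have hprod : algebraMap K L c ≠ 0 := by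
    rw [Ne, map_eq_zero]; exact hc0
  have hy0 : ∀ i, (σ ^ i) y ≠ 0 := by
    have hy1 : y ≠ 0 := by
      rintro rfl
      apply hprod
      rw [← hy]
      exact prod_eq_zero (mem_range.2 hc.pos) (by simp)
    intro i h
    exact hy1 ((map_eq_zero_iff _ (σ ^ i).injective).1 h)
  set f : ℕ → ℤ := fun i => ordv w ((σ ^ i) y) with hf
  have hsum : ∑ i ∈ range n, f i = ordv v c := by
    rw [← hv, ← hy]
    have : ∀ s : Finset ℕ, ordv w (∏ i ∈ s, (σ ^ i) y) = ∑ i ∈ s, f i := by
      intro s
      induction s using Finset.induction_on with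
      | empty => simp [ordv]
      | insert a s ha ih =>
        rw [prod_insert ha, sum_insert ha, ← ih]
        simp only [hf, ordv]
        rw [map_mul, WithZero.log_mul]
        · ring
        · exact (Valuation.ne_zero_iff _).2 (hy0 a)
        · exact (Valuation.ne_zero_iff _).2 (prod_ne_zero_iff.2 fun i _ => hy0 i)
    exact (this _).symm
  have hpn : ∀ i, f (i + n) = f i := by
    intro i
    simp only [hf]
    rw [pow_add, ← hc.ord, pow_orderOf_eq_one, mul_one]
  have hpb : ∀ i, f (i + b) = f i := by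
    intro i
    simp only [hf, ordv]
    rw [add_comm, pow_add]
    change -WithZero.log (w.valuation L ((σ ^ b) ((σ ^ i) y))) = _
    rw [hfr]
  have h1 := sum_per f n hpn b
  have h2 := sum_per f b hpb n
  rw [mul_comm b n] at h2
  rw [hsum] at h1
  refine ⟨∑ i ∈ range b, f i, ?_⟩
  rw [← h1, h2]

end Vale.Agent.P022.H352.CF
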