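import Vale.Agent.P022.H352.Rdn
import Vale.Agent.P022.H269.Unrv

/-!
P022-CFT, block [RED]: the reciprocity law in every degree from prime power degree.
-/

open NumberField IsDedekindDomain Finset
open scoped Pointwise
namespace Vale.Agent.P022.H352.CF
open Vale.Agent.P022.C

section cyc

variable {K L : Type} [Field K] [NumberField K] [Field L] [NumberField L] [Algebra K L]
  {n : ℕ} {σ : L ≃ₐ[K] L}

/-- the subextension of degree `d` -/
theorem sub (h : Cyc K n σ) {d : ℕ} (hd : d ∣ n) :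
    ∃ (F : IntermediateField K L) (_ : IsGalois K F) (s : F ≃ₐ[K] F), Cyc K d s ∧
      ∀ x : F, ((s x : F) : L) = σ x := by
  have := fd K L
  have := cyc_galois h
  have hd0 : 0 < d := Nat.pos_of_dvd_of_pos hd h.pos
  obtain ⟨m, hm⟩ := hd
  have hm0 : 0 < m := Nat.pos_of_ne_zero (by rintro rfl; rw [mul_zero] at hm; exact h.pos.ne' hm)
  let H : Subgroup (L ≃ₐ[K] L) := Subgroup.zpowers (σ ^ d)
  have hN : H.Normal := by
    constructor
    intro a _ g
    obtain ⟨i, rfl⟩ := cyc_pow h a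
    obtain ⟨j, rfl⟩ := cyc_pow h g
    have : σ ^ j * σ ^ i * (σ ^ j)⁻¹ = σ ^ i := by
      rw [← pow_add, add_comm, pow_add, mul_inv_cancel_right]
    rwa [this]
  have hcH : Nat.card H = m := by
    rw [Nat.card_zpowers, orderOf_pow, h.ord, hm, Nat.gcd_eq_right (Dvd.intro m rfl),
      Nat.mul_div_cancel_left _ hd0]
  let F := IntermediateField.fixedField H
  have hG : IsGalois K F := IsGalois.of_fixedField_normal_subgroup H
  have hr : Module.finrank K F = d := by
    have h1 := Module.finrank_mul_finrank K F L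
    rw [IntermediateField.finrank_fixedField_eq_card, hcH, h.rank, hm] at h1
    exact Nat.eq_of_mul_eq_mul_right hm0 h1
  refine ⟨F, hG, AlgEquiv.restrictNormalHom F σ, ⟨hd0, ?_, hr⟩, ?_⟩
  · rw [← hr, ← IsGalois.card_aut_eq_finrank K F]
    refine orderOf_eq_card_of_forall_mem_zpowers ?_
    intro g
    obtain ⟨g', rfl⟩ := AlgEquiv.restrictNormalHom_surjective (F := K) (K₁ := F) L g
    obtain ⟨i, rfl⟩ := cyc_pow h g'
    rw [map_pow]
    exact Subgroup.pow_mem _ (Subgroup.mem_zpowers _) i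
  · intro x
    exact AlgEquiv.restrictNormalHom_apply F σ x

end cyc

/-- the inertia group of a subextension is trivial if the one above is -/
theorem inert_sub {K F L : Type} [Field K] [NumberField K] [Field F] [NumberField F] [Field L]
    [NumberField L] [Algebra K F] [Algebra K L] [Algebra F L] [IsScalarTower K F L] [IsGalois K F]
    [IsGalois K L] (v : HeightOneSpectrum (𝓞 K)) (u : HeightOneSpectrum (𝓞 F))
    (w : HeightOneSpectrum (𝓞 L)) (huv : dn K u.asIdeal = v.asIdeal)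
    (hwu : dn F w.asIdeal = u.asIdeal)
    (hI : ∀ g : L ≃ₐ[K] L, (∀ x : 𝓞 L, g • x - x ∈ w.asIdeal) → g = 1) :
    ∀ g : F ≃ₐ[K] F, (∀ x : 𝓞 F, g • x - x ∈ u.asIdeal) → g = 1 := by
  have h1 : u.asIdeal.LiesOver v.asIdeal := ⟨huv.symm⟩
  have h2 : w.asIdeal.LiesOver u.asIdeal := ⟨hwu.symm⟩
  have h3 : w.asIdeal.LiesOver v.asIdeal := Ideal.LiesOver.trans _ u.asIdeal _
  have e1 : w.asIdeal.ramificationIdx (𝓞 K) = 1 := by
    rw [← Ideal.ramificationIdx'_eq_ramificationIdx v.asIdeal _ v.ne_bot]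
    exact H269.ram_one v w h3.over.symm hI
  have e2 := Ideal.ramificationIdx_tower (R := 𝓞 K) u.asIdeal w.asIdeal
  rw [e1] at e2
  have e3 : u.asIdeal.ramificationIdx (𝓞 K) = 1 := Nat.eq_one_of_mul_eq_one_right e2.symm
  have e4 := Ideal.card_inertia_eq_ramificationIdxIn (G := F ≃ₐ[K] F) v.asIdeal u.asIdeal
  rw [Ideal.ramificationIdxIn_eq_ramificationIdx v.asIdeal u.asIdeal (F ≃ₐ[K] F), e3] at e4
  intro g hg
  have h5 : u.asIdeal.inertia (F ≃ₐ[K] F) = ⊥ := Subgroup.eq_bot_of_card_eq _ e4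
  have h6 : g ∈ u.asIdeal.inertia (F ≃ₐ[K] F) := hg
  rw [h5] at h6
  exact h6


/-! ### primes and embeddings above -/

section above

variable {K F L : Type} [Field K] [NumberField K] [Field F] [NumberField F] [Field L]
    [NumberField L] [Algebra K F] [Algebra K L] [Algebra F L] [IsScalarTower K F L]

omit [NumberField F] [NumberField L] in
theorem exists_above (P : Ideal (𝓞 F)) (hP : P.IsPrime) :
    ∃ Q : Ideal (𝓞 L), Q.IsPrime ∧ dn F Q = P := by
  obtain ⟨Q, hQ, h⟩ := Ideal.exists_ideal_over_prime_of_isIntegral_of_isDomain (S := 𝓞 L) P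
    (by
      rw [(RingHom.injective_iff_ker_eq_bot _).1
        (FaithfulSMul.algebraMap_injective (𝓞 F) (𝓞 L))]
      exact bot_le)
  exact ⟨Q, hQ, h⟩

omit [NumberField K] [NumberField F] [NumberField L] in
theorem dn_dn (Q : Ideal (𝓞 L)) : dn K (dn F Q) = dn K Q := by
  rw [dn, dn, Ideal.comap_comap, ← IsScalarTower.algebraMap_eq (𝓞 K) (𝓞 F) (𝓞 L)]

omit [NumberField K] [NumberField F] [NumberField L] [IsScalarTower K F L] in
theorem pow_compat {σ : L ≃ₐ[K] L} {s : F ≃ₐ[K] F}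
    (hcomp : ∀ x : F, algebraMap F L (s x) = σ (algebraMap F L x)) (i : ℕ) (x : F) :
    algebraMap F L ((s ^ i) x) = (σ ^ i) (algebraMap F L x) := by
  induction i generalizing x with
  | zero => simp
  | succ i ih =>
    rw [pow_succ, pow_succ, AlgEquiv.mul_apply, AlgEquiv.mul_apply, ih, hcomp]

omit [NumberField K] [NumberField F] [NumberField L] [IsScalarTower K F L] in
theorem frob_desc {σ : L ≃ₐ[K] L} {s : F ≃ₐ[K] F}
    (hcomp : ∀ x : F, algebraMap F L (s x) = σ (algebraMap F L x)) (i q : ℕ) (Q : Ideal (𝓞 L))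
    (h : Frob (σ ^ i) q Q) : Frob (s ^ i) q (dn F Q) := by
  intro x
  have h1 := h (algebraMap (𝓞 F) (𝓞 L) x)
  have h2 : algebraMap (𝓞 F) (𝓞 L) ((s ^ i) • x - x ^ q) =
      (σ ^ i) • (algebraMap (𝓞 F) (𝓞 L) x) - (algebraMap (𝓞 F) (𝓞 L) x) ^ q := by
    rw [map_sub, map_pow]
    congr 1
    apply RingOfIntegers.ext
    exact pow_compat hcomp i (x : F)
  rw [Ideal.mem_comap, h2]
  exact h1

end above

section frob

variable {K F : Type} [Field K] [NumberField K] [Field F] [NumberField F] [Algebra K F]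
  {d : ℕ} {s : F ≃ₐ[K] F}

/-- a Frobenius exponent for all primes above `v` -/
theorem exists_exp (h : Cyc K d s) (v : HeightOneSpectrum (𝓞 K)) :
    ∃ e : ℕ, ∀ P : Ideal (𝓞 F), P.IsPrime → dn K P = v.asIdeal →
      Frob (s ^ e) (Ideal.absNorm v.asIdeal) P := by
  have := fd K F
  have := cyc_galois h
  obtain ⟨P₀, hP₀, hv₀⟩ := exists_above (F := K) (L := F) v.asIdeal v.isPrime
  have hb : P₀ ≠ ⊥ := by
    rintro rfl
    apply v.ne_bot
    rw [← hv₀, dn]
    exact Ideal.comap_bot_of_injective _ (FaithfulSMul.algebraMap_injective (𝓞 K) (𝓞 F))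
  have hfin : Finite (𝓞 F ⧸ P₀) := Ring.HasFiniteQuotients.finiteQuotient hb
  obtain ⟨g, hg⟩ := IsArithFrobAt.exists_of_isInvariant (𝓞 K) (F ≃ₐ[K] F) P₀
  obtain ⟨e, rfl⟩ := cyc_pow h g
  refine ⟨e, ?_⟩
  intro P hP hv
  have hg' : ∀ x : 𝓞 F, (s ^ e) • x - x ^ (Ideal.absNorm v.asIdeal) ∈ P₀ := by
    intro x
    have h1 := hg x
    have h2 : Nat.card (𝓞 K ⧸ P₀.under (𝓞 K)) = Ideal.absNorm v.asIdeal := by
      rw [← hv₀]
      rfl
    rw [h2] at h1
    exact h1
  obtain ⟨t, ht⟩ := Algebra.IsInvariant.exists_smul_of_under_eq (𝓞 K) (𝓞 F) (F ≃ₐ[K] F) P₀ P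
    (hv₀.trans hv.symm)
  obtain ⟨j, rfl⟩ := cyc_pow h t
  intro x
  rw [ht]
  have key := Ideal.smul_mem_pointwise_smul (s ^ j) _ _ (hg' ((s ^ j)⁻¹ • x))
  have e1 : (s ^ j) • ((s ^ e) • ((s ^ j)⁻¹ • x) - ((s ^ j)⁻¹ • x) ^ (Ideal.absNorm v.asIdeal)) =
      (s ^ e) • x - x ^ (Ideal.absNorm v.asIdeal) := by
    rw [smul_sub, smul_pow', smul_inv_smul, smul_smul, ← pow_add, add_comm, pow_add, mul_smul,
      smul_inv_smul]
  rwa [e1] at key

end frob

section red

variable {K F L : Type} [Field K] [NumberField K] [Field F] [NumberField F] [Field L]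
    [NumberField L] [Algebra K F] [Algebra K L] [Algebra F L] [IsScalarTower K F L]

/-- the reciprocity law of a subextension, for a multiple of the modulus -/
theorem rec_sub {d m' m : ℕ} {σ : L ≃ₐ[K] L} {s : F ≃ₐ[K] F} (hs : Cyc K d s)
    (hcomp : ∀ x : F, algebraMap F L (s x) = σ (algebraMap F L x)) (hm : m' ∣ m)
    (h : RecLaw d s m')
    (a : HeightOneSpectrum (𝓞 K) → ℕ)
    (ha : ∀ (v : HeightOneSpectrum (𝓞 K)) (P : Ideal (𝓞 L)), (m : 𝓞 K) ∉ v.asIdeal → P.IsPrime →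
      dn K P = v.asIdeal → Frob (σ ^ a v) (Ideal.absNorm v.asIdeal) P)
    (c : (K →+* ℝ) → ℕ)
    (hc : ∀ (φ : K →+* ℝ) (ρ : L →+* ℂ), (∀ x, ρ (algebraMap K L x) = (φ x : ℂ)) →
      ∀ x, starRingEnd ℂ (ρ x) = ρ ((σ ^ c φ) x))
    (α : 𝓞 K) (hα : α ≠ 0) (hα1 : (m : 𝓞 K) ∣ α - 1) :
    (d : ℤ) ∣ (∑ᶠ v : HeightOneSpectrum (𝓞 K), ordv v (α : K) * a v) +
      ∑ᶠ φ ∈ {φ : K →+* ℝ | φ (α : K) < 0}, (c φ : ℤ) := by
  classical
  choose e he using exists_exp hs
  have hfin : ∑ᶠ v : HeightOneSpectrum (𝓞 K), ordv v (α : K) * a v =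
      ∑ᶠ v : HeightOneSpectrum (𝓞 K), ordv v (α : K) *
        ((if (m : 𝓞 K) ∈ v.asIdeal then e v else a v : ℕ) : ℤ) := by
    refine finsum_congr fun v => ?_
    split_ifs with hv
    · have h1 : α ∉ v.asIdeal := by
        intro h1
        apply v.isPrime.ne_top
        rw [Ideal.eq_top_iff_one]
        have h2 : α - 1 ∈ v.asIdeal := Ideal.mem_of_dvd _ hα1 hv
        have h3 := Ideal.sub_mem _ h1 h2
        rwa [sub_sub_cancel] at h3
      have h2 : v.valuation K (α : K) = 1 := v.valuation_eq_one_iff_notMem.2 h1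
      rw [ordv, h2]
      simp
    · rfl
  rw [hfin]
  refine h _ ?_ c ?_ α hα ((Nat.cast_dvd_cast hm).trans hα1)
  · intro v P hv hP hPv
    split_ifs with hmv
    · exact he v P hP hPv
    · obtain ⟨Q, hQ, rfl⟩ := exists_above (L := L) P hP
      apply frob_desc hcomp
      exact ha v Q hmv hQ (by rw [← dn_dn (F := F)]; exact hPv)
  · intro φ ρ hρ x
    let _ : Algebra F ℂ := ρ.toAlgebra
    have hal : Algebra.IsAlgebraic F L := inferInstance
    let ρ' : L →ₐ[F] ℂ := IsAlgClosed.lift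
    have h1 : ∀ y : F, ρ' (algebraMap F L y) = ρ y := fun y => ρ'.commutes y
    have h2 := hc φ ρ' (fun y => by
      rw [IsScalarTower.algebraMap_apply K F L]
      exact (h1 _).trans (hρ y)) (algebraMap F L x)
    rw [← pow_compat hcomp] at h2
    have h3 : starRingEnd ℂ (ρ' (algebraMap F L x)) = ρ' (algebraMap F L ((s ^ c φ) x)) := h2
    rwa [h1, h1] at h3

end red

/-- the block [RED] -/
theorem RED : REDStmt := by
  intro hP K L _ _ _ _ _ n σ h
  have := fd K L
  have := cyc_galois h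
  have hn : n ≠ 0 := h.pos.ne'
  have hq : ∀ q ∈ n.primeFactors, ∃ m : ℕ, m ≠ 0 ∧ (∀ p : ℕ, p.Prime → p ∣ m →
      ∃ P : Ideal (𝓞 L), P.IsPrime ∧ (p : 𝓞 L) ∈ P ∧ ¬ Unr σ P) ∧
      (∀ P : Ideal (𝓞 L), P.IsPrime → P ≠ ⊥ → (m : 𝓞 L) ∉ P →
        ∀ i : ℕ, (∀ x : 𝓞 L, (σ ^ i) • x - x ∈ P) → q ^ n.factorization q ∣ i) ∧
      ∀ m' : ℕ, m ∣ m' → RecLaw (q ^ n.factorization q) σ m' := by
    intro q hqn
    have hqp := Nat.prime_of_mem_primeFactors hqn
    obtain ⟨F, hF, s, hs, hcomp⟩ := sub h (Nat.ordProj_dvd n q)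
    have hcomp' : ∀ x : F, algebraMap F L (s x) = σ (algebraMap F L x) := hcomp
    obtain ⟨m, hm0, hmp, hmu, hrec⟩ := hP K F q _ hqp s hs
    refine ⟨m, hm0, ?_, ?_, ?_⟩
    · intro p hp hpm
      obtain ⟨P', hP', hpP', hun⟩ := hmp p hp hpm
      obtain ⟨Q, hQ, rfl⟩ := exists_above (L := L) P' hP'
      have hpQ : (p : 𝓞 L) ∈ Q := by
        rw [Ideal.mem_comap, map_natCast] at hpP'
        exact hpP'
      refine ⟨Q, hQ, hpQ, ?_⟩
      intro hU
      apply hun
      have hQb : Q ≠ ⊥ := by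
        rintro rfl
        rw [Ideal.mem_bot] at hpQ
        exact hp.ne_zero (by exact_mod_cast hpQ)
      have hFb : dn F Q ≠ ⊥ := by
        intro hb
        rw [hb, Ideal.mem_bot] at hpP'
        exact hp.ne_zero (by exact_mod_cast hpP')
      have hpK : (p : 𝓞 K) ∈ dn K Q := by
        rw [Ideal.mem_comap, map_natCast]
        exact hpQ
      have hKb : dn K Q ≠ ⊥ := by
        intro hb
        rw [hb, Ideal.mem_bot] at hpK
        exact hp.ne_zero (by exact_mod_cast hpK)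
      have key := inert_sub (K := K) (F := F) (L := L) ⟨dn K Q, inferInstance, hKb⟩
        ⟨dn F Q, hP', hFb⟩ ⟨Q, hQ, hQb⟩ (dn_dn Q) rfl (by
          intro g hg
          obtain ⟨i, rfl⟩ := cyc_pow h g
          exact hU i hg)
      intro i hi
      exact key _ hi
    · intro P hPp hPb hmP i hi
      have h1 : Unr s (dn F P) := by
        refine hmu _ inferInstance (Ideal.IsIntegral.comap_ne_bot (𝓞 F) hPb) ?_
        rw [Ideal.mem_comap, map_natCast]
        exact hmP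
      have h2 : s ^ i = 1 := by
        apply h1
        intro x
        have h3 : algebraMap (𝓞 F) (𝓞 L) ((s ^ i) • x - x) =
            (σ ^ i) • (algebraMap (𝓞 F) (𝓞 L) x) - (algebraMap (𝓞 F) (𝓞 L) x) := by
          rw [map_sub]
          congr 1
          apply RingOfIntegers.ext
          exact pow_compat hcomp' i (x : F)
        rw [Ideal.mem_comap, h3]
        exact hi _
      rw [← hs.ord]
      exact orderOf_dvd_of_pow_eq_one h2
    · intro m' hm' a ha c hc α hα hα1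
      exact rec_sub hs hcomp' hm' hrec a ha c hc α hα hα1
  choose! m hm0 hmp hmu hrec using hq
  refine ⟨∏ q ∈ n.primeFactors, m q, Finset.prod_ne_zero_iff.2 hm0, ?_, ?_, ?_⟩
  · intro p hp hpm
    obtain ⟨q, hqn, hpq⟩ := hp.prime.exists_mem_finset_dvd hpm
    exact hmp q hqn p hp hpq
  · intro P hPp hPb hmP i hi
    rw [← orderOf_dvd_iff_pow_eq_one, h.ord, Nat.dvd_iff_prime_pow_dvd_dvd]
    intro p k hp hpk
    rcases Nat.eq_zero_or_pos k with rfl | hk
    · simp
    · have hpn : p ∈ n.primeFactors :=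
        Nat.mem_primeFactors.2 ⟨hp, (dvd_pow_self p hk.ne').trans hpk, hn⟩
      have h1 := hmu p hpn P hPp hPb (fun h2 => hmP (Ideal.mem_of_dvd _
        (Nat.cast_dvd_cast (Finset.dvd_prod_of_mem m hpn)) h2)) i hi
      exact (pow_dvd_pow p ((hp.pow_dvd_iff_le_factorization hn).1 hpk)).trans h1
  · intro a ha c hc α hα hα1
    rw [Int.natCast_dvd, Nat.dvd_iff_prime_pow_dvd_dvd]
    intro p k hp hpk
    rcases Nat.eq_zero_or_pos k with rfl | hk
    · simp
    · have hpn : p ∈ n.primeFactors :=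
        Nat.mem_primeFactors.2 ⟨hp, (dvd_pow_self p hk.ne').trans hpk, hn⟩
      have h1 := hrec p hpn _ (Finset.dvd_prod_of_mem m hpn) a ha c hc α hα hα1
      rw [Int.natCast_dvd] at h1
      exact (pow_dvd_pow p ((hp.pow_dvd_iff_le_factorization hn).1 hpk)).trans h1

end Vale.Agent.P022.H352.CF
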